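import Vale.Agent.P225.YDefs
import Vale.Agent.P225.AE.Main

namespace Vale.Agent.Results.P225.AllEven

open Vale.Agent.P225

/-- Yau's dimension comparison is false in every even dimension `n ≥ 12` and for every large
degree `k`, by a constant factor: there are `c > 0` and `k₀` such that for every `k ≥ k₀` there is
a complete Riemannian metric of nonnegative Ricci curvature on `ℝⁿ` whose space of harmonic
functions of growth of order at most `k` has dimension larger than `1 + c` times the dimension
for the Euclidean metric. -/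
theorem result (n : ℕ) (hn : Even n) (h12 : 12 ≤ n) :
    ∃ c : ℝ, 0 < c ∧ ∃ k₀ : ℕ, ∀ k : ℕ, k₀ ≤ k →
      ∃ g : RMetric n, g.Complete ∧ g.RicciNonneg ∧ ∃ N : ℕ,
        (1 + c) * (((n + k - 1).choose k + (n + k - 2).choose (k - 1) : ℕ) : ℝ) < N ∧
        ∃ v : Fin N → (Rn n → ℝ), LinearIndependent ℝ v ∧ ∀ i, v i ∈ g.harm k :=
  AE.allEven n hn h12

end Vale.Agent.Results.P225.AllEven
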