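import Vale.Agent.P225.YDefs
import Vale.Agent.P225.H485.NearDefs
import Vale.Agent.P225.H485.Main

namespace Vale.Agent.Results.P225.NearlyFlat

open Vale.Agent.P225

/-- (1) Yau's dimension comparison is false: on `ℝ¹²` there is a complete smooth Riemannian metric
of nonnegative Ricci curvature whose space of harmonic functions of growth of order at most `k`
has, for some `k ≥ 1`, a larger dimension than for the Euclidean metric.

(2) It fails arbitrarily close to the flat metric: for every even `n ≥ 12` and every `ε > 0` there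
are `c > 0` and `k₀` such that for every `k ≥ k₀` there is a complete smooth metric `g` on `ℝⁿ`
with nonnegative Ricci curvature, Euclidean on the unit ball, `(1+ε)`-close to the flat metric
(`NearFlat`), whose space of harmonic functions of growth of order at most `k` has dimension
larger than `1 + c` times the Euclidean one. -/
theorem result :
    (∃ g : RMetric 12, g.Complete ∧ g.RicciNonneg ∧ ∃ k : ℕ, 1 ≤ k ∧
      ∃ v : Fin ((12 + k - 1).choose k + (12 + k - 2).choose (k - 1) + 1) → (Rn 12 → ℝ),
        LinearIndependent ℝ v ∧ ∀ i, v i ∈ g.harm k) ∧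
    ∀ n : ℕ, Even n → 12 ≤ n → ∀ ε : ℝ, 0 < ε → ∃ c : ℝ, 0 < c ∧ ∃ k₀ : ℕ, ∀ k : ℕ, k₀ ≤ k →
      ∃ g : RMetric n, g.Complete ∧ g.RicciNonneg ∧ (∀ x, ‖x‖ ≤ 1 → g.G x = 1) ∧
        NearFlat g ε ∧ ∃ N : ℕ,
        (1 + c) * (((n + k - 1).choose k + (n + k - 2).choose (k - 1) : ℕ) : ℝ) < N ∧
        ∃ v : Fin N → (Rn n → ℝ), LinearIndependent ℝ v ∧ ∀ i, v i ∈ g.harm k :=
  ⟨H485.yau_fails_twelve, H485.near_allEven⟩

end Vale.Agent.Results.P225.NearlyFlat
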